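import Vale.Agent.P181.BAL.Defs

set_option autoImplicit false

open scoped TensorProduct

namespace Vale.Agent.P181.BAL.H809

open Vale.Agent.P181 Vale.Agent.P181.H280 Vale.Agent.P181.H54 Vale.Agent.P181.BAL

theorem act_mul (b a n : ℕ) (g h : Matrix (Fin n) (Fin n) ℂ) (x : Pleth b a n) :
    plethAct b a n g (plethAct b a n h x) = plethAct b a n (g * h) x := by
  unfold plethAct
  erw [symMap_comp_apply]
  have h1 : symMap a (Matrix.toLin' g) ∘ₗ symMap a (Matrix.toLin' h) =
      symMap a (Matrix.toLin' (g * h)) := by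
    ext1 y
    rw [LinearMap.comp_apply, symMap_comp_apply, ← Matrix.toLin'_mul]
  rw [h1]
  rfl

theorem mul_ns {k : ℕ} (M : Matrix (Fin (k + 2)) (Fin (k + 2)) ℂ) (s : ℂ)
    (i j : Fin (k + 2)) :
    (M * ns k s) i j = M i j + if j = 0 then M i 1 * s else 0 := by
  unfold ns
  rw [Matrix.mul_add, Matrix.mul_one, Matrix.add_apply]
  congr 1
  by_cases hj : j = 0
  · subst hj
    rw [Matrix.mul_single_apply_same, if_pos rfl]
  · rw [if_neg hj, Matrix.mul_single_apply_of_ne]
    exact hj

theorem ns_mul {k : ℕ} (M : Matrix (Fin (k + 2)) (Fin (k + 2)) ℂ) (s : ℂ)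
    (i j : Fin (k + 2)) :
    (ns k s * M) i j = M i j + if i = 1 then s * M 0 j else 0 := by
  unfold ns
  rw [Matrix.add_mul, Matrix.one_mul, Matrix.add_apply]
  congr 1
  by_cases hi : i = 1
  · subst hi
    rw [Matrix.single_mul_apply_same, if_pos rfl]
  · rw [if_neg hi, Matrix.single_mul_apply_of_ne]
    exact hi

theorem ns_ns {k : ℕ} (s t : ℂ) : ns k s * ns k t = ns k (s + t) := by
  ext i j
  rw [mul_ns]
  unfold ns
  simp only [Matrix.add_apply, Matrix.one_apply, Matrix.single_apply]
  by_cases hi : i = 1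
  · subst hi
    by_cases hj : j = 0
    · subst hj
      simp
    · have hj' : ¬ (0 : Fin (k + 2)) = j := fun h => hj h.symm
      simp [hj, hj']
  · have hi' : ¬ (1 : Fin (k + 2)) = i := fun h => hi h.symm
    simp [hi, hi']

theorem law : Law := by
  intro a b k mu x hx h10 g hg s hD
  set D := g 0 0 + g 0 1 * s with hDdef
  set s' := g 1 1 * s / D with hs'
  have h01 : (0 : Fin (k + 2)) < 1 := by
    rw [Fin.lt_def]; simp
  have hg10 : g 1 0 = 0 := hg.1 1 0 h01
  set g' := ns k (-s') * (g * ns k s) with hg'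
  have hfac : g * ns k s = ns k s' * g' := by
    rw [hg', ← Matrix.mul_assoc, ns_ns, add_neg_cancel]
    have : ns k 0 = 1 := by simp [ns]
    rw [this, Matrix.one_mul]
  have hent : ∀ i j, g' i j = (g i j + if j = 0 then g i 1 * s else 0) +
      if i = 1 then -s' * (g 0 j + if j = 0 then g 0 1 * s else 0) else 0 := by
    intro i j
    rw [hg', ns_mul, mul_ns, mul_ns]
  have h00 : g' 0 0 = D := by
    rw [hent]
    simp [hDdef]
  have h11 : g' 1 1 = g 0 0 * g 1 1 / D := by
    rw [hent]
    simp only [if_true, Fin.one_eq_zero_iff]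
    simp
    rw [hs']
    field_simp
    rw [hDdef]
    ring
  have hss : ∀ i : Fin k, g' i.succ.succ i.succ.succ = g i.succ.succ i.succ.succ := by
    intro i
    rw [hent]
    have e1 : ¬ (i.succ.succ : Fin (k + 2)) = 0 := Fin.succ_ne_zero _
    have e2 : ¬ (i.succ.succ : Fin (k + 2)) = 1 := by
      intro h
      have := congrArg Fin.val h
      simp at this
    simp [e1, e2]
  have hb' : IsBorel g' := by
    constructor
    · intro i j hji
      rw [hent]
      by_cases hi1 : i = 1
      · subst hi1
        have hj0 : j = 0 := by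
          apply Fin.ext
          have := Fin.lt_def.mp hji
          simp at this
          simpa using this
        subst hj0
        simp only [if_true]
        rw [hg10, zero_add, hs', ← hDdef]
        field_simp
        ring
      · rw [if_neg hi1, add_zero, hg.1 i j hji, zero_add]
        by_cases hj0 : j = 0
        · subst hj0
          have hi : (1 : Fin (k + 2)) < i := by
            rw [Fin.lt_def]
            have h1 := Fin.lt_def.mp hji
            have h2 : (i : ℕ) ≠ 1 := fun h => hi1 (Fin.ext (by simpa using h))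
            simp at h1 ⊢
            omega
          rw [if_pos rfl, hg.1 i 1 hi, zero_mul]
        · rw [if_neg hj0]
    · intro i
      refine Fin.cases ?_ (fun i => ?_) i
      · rw [h00]; exact hD
      · refine Fin.cases ?_ (fun i => ?_) i
        · have h3 : (Fin.succ 0 : Fin (k + 2)) = 1 := rfl
          rw [h3, h11]
          exact div_ne_zero (mul_ne_zero (hg.2 0) (hg.2 1)) hD
        · rw [hss]; exact hg.2 _
  rw [act_mul, hfac, ← act_mul, hx g' hb', map_smul]
  congr 1
  rw [Fin.prod_univ_succ, Fin.prod_univ_succ]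
  have h3 : (Fin.succ 0 : Fin (k + 2)) = 1 := rfl
  rw [h3, h00, h11]
  simp only [hss]
  have h4 : D ^ mu 0 = D ^ (mu 0 - mu 1) * D ^ mu 1 := by
    rw [← pow_add, Nat.sub_add_cancel h10]
  rw [h4, div_pow]
  have h5 : D ^ mu 1 ≠ 0 := pow_ne_zero _ hD
  field_simp

end Vale.Agent.P181.BAL.H809
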